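/-
P090: disproof of the bounded approximation property for free spaces over uniformly discrete
metric spaces.
-/
import Vale.Agent.P090.Main

namespace Vale.Agent.Results.P090.BapFailsUniformlyDiscrete

/-- There is a countable metric space with all nonzero distances at least `1` whose Lipschitz-free
space, given by its defining properties, fails the bounded approximation property. -/
theorem result :
    ∃ (M : Type) (_ : MetricSpace M) (o : M),
      Countable M ∧ (∀ a b : M, a ≠ b → 1 ≤ dist a b) ∧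
      (∃ (X : Type) (_ : NormedAddCommGroup X) (_ : NormedSpace ℝ X) (_ : CompleteSpace X)
        (δ : M → X), δ o = 0 ∧ Isometry δ ∧
          (Submodule.span ℝ (Set.range δ)).topologicalClosure = ⊤ ∧
          ∀ f : M → ℝ, LipschitzWith 1 f → f o = 0 →
            ∃ φ : X →L[ℝ] ℝ, ‖φ‖ ≤ 1 ∧ ∀ x, φ (δ x) = f x) ∧
      ∀ (X : Type) [NormedAddCommGroup X] [NormedSpace ℝ X] (δ : M → X),
        δ o = 0 → Isometry δ →
        (Submodule.span ℝ (Set.range δ)).topologicalClosure = ⊤ →
        (∀ f : M → ℝ, LipschitzWith 1 f → f o = 0 →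
          ∃ φ : X →L[ℝ] ℝ, ‖φ‖ ≤ 1 ∧ ∀ x, φ (δ x) = f x) →
        ¬ ∃ c : ℝ, ∀ C : Set X, IsCompact C → ∀ ε : ℝ, 0 < ε →
          ∃ T : X →L[ℝ] X, FiniteDimensional ℝ (LinearMap.range (T : X →ₗ[ℝ] X)) ∧
            ‖T‖ ≤ c ∧ ∀ u ∈ C, ‖T u - u‖ < ε :=
  Vale.Agent.P090.free_fails_bap

end Vale.Agent.Results.P090.BapFailsUniformlyDiscrete
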